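import Vale.Agent.P196.Full.Universal.Defs

/-!
# P196: finite presentation from the universal group
-/

namespace Vale.Agent.P196.Full

/-- The kernel of the universal group is finitely generated as soon as the system is sparse. -/
def UniversalGoal : Prop :=
  ∀ (X : Type) [TopologicalSpace X] [CompactSpace X] [T2Space X] [TotallyDisconnectedSpace X]
    [Nonempty X] (S : Sys X) (T : Tower S) (n : ℕ), 8 ≤ n → S.IsMinimal → T.Sparse →
    KernelFinite S n

/-- The finite presentation of the alternating group from that of the universal group. -/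
theorem isFP_of_universal {X : Type} [TopologicalSpace X] (S : Sys X) (n : ℕ)
    (hK : KernelFinite S n) (hU : UniversalFP S n) : IsFP (S.altGroup n) := by
  obtain ⟨Z, hZfin, hz, hker⟩ := hK
  obtain ⟨k, ι, R, hRfin, hR, φ, hφ, hι, hrel⟩ := hU
  let ev : FreeGroup (Fin k) →* S.altGroup n :=
    FreeGroup.lift fun i => ⟨(ι i).perm S, (ι i).perm_mem S⟩
  have hev : ∀ w, ((ev w : S.altGroup n) : Equiv.Perm (Pt X n)) = evalWord S (FreeGroup.map ι w) := by
    intro w
    have : (S.altGroup n).subtype.comp ev = (evalWord S).comp (FreeGroup.map ι) :=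
      FreeGroup.ext_hom _ _ (fun i => by simp [ev, evalWord])
    exact DFunLike.congr_fun this w
  let R' : Set (FreeGroup (Fin k)) := R ∪ FreeGroup.lift φ '' Z
  have hphi : ∀ w, evalWord S (FreeGroup.map ι (FreeGroup.lift φ w)) = evalWord S w := by
    intro w
    have : ((evalWord S).comp (FreeGroup.map ι)).comp (FreeGroup.lift φ) = evalWord S :=
      FreeGroup.ext_hom _ _ (fun g => by simpa [evalWord] using hφ g)
    exact DFunLike.congr_fun this w
  have h1 : ∀ w ∈ R', ev w = 1 := by
    intro w hw
    refine Subtype.ext ?_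
    rw [hev]
    rcases hw with hw | hw
    · simpa using hR w hw
    · obtain ⟨z, hzZ, rfl⟩ := hw
      rw [hphi, hz z hzZ]; rfl
  let π : PresentedGroup R' →* S.altGroup n := PresentedGroup.toGroup h1
  refine ⟨k, R', hRfin.union (hZfin.image _), ⟨MulEquiv.ofBijective π ⟨?_, ?_⟩⟩⟩
  · refine (injective_iff_map_eq_one π).2 fun a ha => ?_
    obtain ⟨w, rfl⟩ := PresentedGroup.mk_surjective R' a
    have hw : ev w = 1 := ha
    have hw' : evalWord S (FreeGroup.map ι w) = 1 := by rw [← hev, hw]; rfl
    set N := Subgroup.normalClosure R' with hNdef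
    have hN : FreeGroup.lift φ (FreeGroup.map ι w) ∈ N := by
      have hle : Subgroup.normalClosure ({w | URel S w} ∪ Z) ≤ N.comap (FreeGroup.lift φ) := by
        refine Subgroup.normalClosure_le_normal ?_
        rintro v (hv | hv)
        · exact Subgroup.normalClosure_mono Set.subset_union_left (hrel v hv)
        · exact Subgroup.subset_normalClosure (Set.mem_union_right _ ⟨v, hv, rfl⟩)
      exact hle (hker _ hw')
    refine (QuotientGroup.eq_one_iff w).2 ?_
    have hcong : (QuotientGroup.mk' N).comp ((FreeGroup.lift φ).comp (FreeGroup.map ι)) =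
        QuotientGroup.mk' N := by
      refine FreeGroup.ext_hom _ _ (fun i => ?_)
      have := Subgroup.normalClosure_mono (Set.subset_union_left (t := FreeGroup.lift φ '' Z)) (hι i)
      refine (QuotientGroup.eq (s := N)).2 ?_
      rw [hNdef]
      simpa [R'] using this
    have := DFunLike.congr_fun hcong w
    simp only [MonoidHom.comp_apply, QuotientGroup.mk'_apply] at this
    rw [← QuotientGroup.eq_one_iff, ← this, QuotientGroup.eq_one_iff]
    exact hN
  · have hsub : S.altGroup n ≤ Subgroup.map ((S.altGroup n).subtype.comp π) ⊤ := by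
      refine le_of_eq_of_le (Sys.altGroup_eq S) ((Subgroup.closure_le _).2 ?_)
      rintro _ ⟨g, rfl⟩
      refine ⟨PresentedGroup.mk R' (φ g), trivial, ?_⟩
      show ((ev (φ g) : S.altGroup n) : Equiv.Perm (Pt X n)) = g.perm S
      rw [hev, hφ]
    intro a
    obtain ⟨b, -, hb⟩ := hsub a.2
    exact ⟨b, Subtype.ext hb⟩

end Vale.Agent.P196.Full
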