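import Vale.Agent.P196.Full.Amenable.Goal
import Vale.Agent.P196.Full.Assemble
import Vale.Agent.P196.Full.Simple.Main
import Vale.Agent.P196.Full.Lift.Assemble
import Vale.Agent.P196.Full.Lift.Central.Main
import Vale.Agent.P196.Full.Lift.Window
import Vale.Agent.P196.Full.Tiles.Equations.Main
import Vale.Agent.P196.Full.Tiles.Minimality
import Vale.Agent.P196.Full.Tiles.Rank.Bounded
import Vale.Agent.P196.Full.Tiles.Sparse

/-!
# P196: assembly of the answer
-/

namespace Vale.Agent.P196.Full

open Lift Tiles

instance : T2Space Pts := inferInstanceAs (T2Space {x : ℤ × ℤ → Base // Matches fun z => (x z).1})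

/-- The group is infinite, simple, amenable and finitely presented, given the parts. -/
theorem answer_of_parts (n : ℕ) (hn : 8 ≤ n) (hP : ParseGoal) (hO : OccursGoal)
    (hKer : UniversalGoal)
    (hStep : ∀ {Q : Type} [Group Q] (A : Amp Q n) (P : Calculus.Part A.u (LTile 0)),
      StepGoal A P)
    (hRel : ∀ {Q : Type} [Group Q] (A : Amp Q n) (P : Calculus.Part A.u (LTile 0))
      (V : Valuation A P), RelatorsHold A V) :
    ∃ (G : Type) (_ : Group G), Infinite G ∧ IsSimpleGroup G ∧ IsAmenable G ∧ IsFP G := by
  have hne : Nonempty Pts := nonempty_pts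
  have hmin : sys.IsMinimal := isMinimal hP hO
  obtain ⟨hs, hinf⟩ := Simple.simpleGoal Pts sys n hn hmin ⟨tower hP⟩
  have hsp : (tower hP).Sparse := Tiles.sparse hP
  obtain ⟨L, hL⟩ := exists_enough (n := n) hn
  have hlev : ∀ s, Nonempty (Level (amp hL) (basePart hL) s) := by
    intro s
    induction s with
    | zero => exact nonempty_level_zero hL
    | succ s ih => exact hStep _ _ s ih
  obtain ⟨V⟩ := valuation_of_levels (goodPart_basePart hL) hlev
  have hV := hRel _ _ V
  have hU : UniversalFP sys n :=
    universalFP_of_proj (tower hP) hn (projFP_of_relators V hV) (Tiles.coinv_finite hP)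
  exact ⟨sys.altGroup n, inferInstance, hinf, hs, amenableGoal Pts sys (tower hP) n hsp,
    isFP_of_universal sys n (hKer Pts sys (tower hP) n hn hmin hsp) hU⟩

end Vale.Agent.P196.Full
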