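import Mathlib

/-!
# P196: alternating groups of amplified lattice actions

The common definitions for the construction of an infinite finitely presented simple amenable
group: an action of `ℤ × ℤ` on a compact space `X`, amplified by `n` colours, and the group of
permutations of `X × Fin n` generated by three-cycles of clopen sets.
-/

open Set

namespace Vale.Agent.P196.Full

/-- The lattice. -/
abbrev Lat := ℤ × ℤ

/-- An action of the lattice by homeomorphisms. -/
structure Sys (X : Type) [TopologicalSpace X] where
  /-- The translation by a lattice vector. -/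
  sh : Lat → X ≃ₜ X
  sh_zero : ∀ x, sh 0 x = x
  sh_add : ∀ u v x, sh (u + v) x = sh u (sh v x)

/-- An amplified point. -/
abbrev Pt (X : Type) (n : ℕ) := X × Fin n

/-- An offset: a lattice vector and a colour. -/
abbrev Off (n : ℕ) := Lat × Fin n

/-- A clopen set. -/
abbrev Clo (X : Type) [TopologicalSpace X] := TopologicalSpace.Clopens X

namespace Sys

variable {X : Type} [TopologicalSpace X] {n : ℕ} (S : Sys X)

/-- Three distinct colours. -/
def Tri (p q r : Off n) : Prop := p.2 ≠ q.2 ∧ q.2 ≠ r.2 ∧ p.2 ≠ r.2

/-- The underlying map of the three-cycle of `U` along the offsets `p`, `q`, `r`. -/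
noncomputable def cycFun (U : Set X) (p q r : Off n) (z : Pt X n) : Pt X n :=
  open Classical in
  if z.2 = p.2 ∧ S.sh (-p.1) z.1 ∈ U then (S.sh (q.1 - p.1) z.1, q.2)
  else if z.2 = q.2 ∧ S.sh (-q.1) z.1 ∈ U then (S.sh (r.1 - q.1) z.1, r.2)
  else if z.2 = r.2 ∧ S.sh (-r.1) z.1 ∈ U then (S.sh (p.1 - r.1) z.1, p.2)
  else z

/-- A generating three-cycle, as a permutation. -/
def IsGen (g : Equiv.Perm (Pt X n)) : Prop :=
  ∃ U : Set X, IsClopen U ∧ ∃ p q r : Off n, Tri p q r ∧ ∀ z, g z = S.cycFun U p q r z

/-- The alternating group of the amplified action. -/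
def altGroup (n : ℕ) : Subgroup (Equiv.Perm (Pt X n)) :=
  Subgroup.closure {g | S.IsGen g}

/-- Every orbit is dense. -/
def IsMinimal : Prop :=
  ∀ U : Set X, IsOpen U → U.Nonempty → ∀ x, ∃ v, S.sh v x ∈ U

end Sys

/-- Grids: clopen phases modulo arbitrarily large widths. -/
structure Tower {X : Type} [TopologicalSpace X] (S : Sys X) where
  /-- The width of the grid of level `m`. -/
  W : ℕ → ℕ
  W_pos : ∀ m, 0 < W m
  W_dvd : ∀ m, W m ∣ W (m + 1)
  W_unbounded : ∀ C, ∃ m, C ≤ W m
  /-- The phase of a point in the grid of level `m`. -/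
  phase : ∀ m, X → ZMod (W m) × ZMod (W m)
  isClopen_fiber : ∀ m c, IsClopen {x | phase m x = c}
  phase_sh : ∀ m v x, phase m (S.sh v x) = phase m x + ((v.1 : ZMod (W m)), (v.2 : ZMod (W m)))
  phase_cast : ∀ m x, (((phase (m + 1) x).1.cast : ZMod (W m)), ((phase (m + 1) x).2.cast : ZMod (W m))) = phase m x

/-- The vector with the given coordinate along an axis and across it; `false` is the horizontal
axis. -/
def axisVec (ax : Bool) (a b : ℤ) : Lat := if ax then (b, a) else (a, b)

namespace Tower

variable {X : Type} [TopologicalSpace X] {S : Sys X} (T : Tower S)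

/-- The phase along an axis. -/
def along (ax : Bool) (m : ℕ) (x : X) : ZMod (T.W m) :=
  if ax then (T.phase m x).2 else (T.phase m x).1

/-- The phase across an axis. -/
def across (ax : Bool) (m : ℕ) (x : X) : ZMod (T.W m) :=
  if ax then (T.phase m x).1 else (T.phase m x).2

/-- Points on a fault line parallel to the axis. -/
def fault (ax : Bool) : Set X := {x | ∀ m, T.across ax m x = 0}

/-- Distance in the cyclic group to a residue. -/
def cdist {N : ℕ} (a b : ZMod N) : ℕ := (a - b).valMinAbs.natAbs

/-- The two channels of a cell of level `m + 1`: its side and its middle. -/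
def centre (c : Bool) (m : ℕ) : ZMod (T.W (m + 1)) :=
  if c then ((T.W (m + 1) / 2 : ℕ) : ZMod (T.W (m + 1))) else 0

/-- The height up to which the neighbourhood of a fault line is controlled. -/
def reach (m : ℕ) : ℕ := T.W (m + 1) / 8

/-- The only property of the subshift used for amenability: near fault lines a finite observation
is periodic of the fine period on each half of a coarse cell away from its two channels, and near a channel it takes boundedly many
shapes, while the ratio of consecutive widths is unbounded. -/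
def Sparse : Prop :=
  ∃ C₀ Q : ℕ, ∀ (α : Type) (f : X → α), Finite α → IsLocallyConstant f → ∀ C : ℕ, ∃ m,
    C ≤ T.W m ∧ C * T.W m ≤ T.W (m + 1) ∧ ∀ ax : Bool,
      (∀ x ∈ T.fault ax, ∀ x' ∈ T.fault ax, ∀ k : ℤ, k.natAbs ≤ T.reach m →
        T.along ax m x = T.along ax m x' →
        ((T.along ax (m + 1) x).val < T.W (m + 1) / 2 ↔
          (T.along ax (m + 1) x').val < T.W (m + 1) / 2) →
        (∀ c, 2 * k.natAbs + C₀ * T.W m < cdist (T.along ax (m + 1) x) (T.centre c m)) →
        (∀ c, 2 * k.natAbs + C₀ * T.W m < cdist (T.along ax (m + 1) x') (T.centre c m)) →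
        f (S.sh (axisVec ax 0 k) x) = f (S.sh (axisVec ax 0 k) x')) ∧
      ∀ c : Bool, ∃ shapes : Finset (ℤ → ℤ → α), shapes.card ≤ Q ∧
        ∀ x ∈ T.fault ax, T.along ax (m + 1) x = T.centre c m →
          ∃ s ∈ shapes, ∀ j k : ℤ, j.natAbs ≤ T.reach m → k.natAbs ≤ T.reach m →
            f (S.sh (axisVec ax j k) x) = s j k

end Tower

/-- A group with a finite presentation. -/
def IsFP (G : Type) [Group G] : Prop :=
  ∃ (k : ℕ) (rels : Set (FreeGroup (Fin k))), rels.Finite ∧
    Nonempty (PresentedGroup rels ≃* G)

end Vale.Agent.P196.Full
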