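import Vale.Agent.P196.Full.Defs

/-!
# P196: the generating three-cycles and the universal group on them
-/

namespace Vale.Agent.P196.Full

open Set

variable {X : Type} [TopologicalSpace X] {n : ℕ}

theorem Sys.sh_neg_cancel (S : Sys X) (u : Lat) (x : X) : S.sh (-u) (S.sh u x) = x := by
  rw [← S.sh_add, neg_add_cancel, S.sh_zero]

theorem Sys.sh_sh (S : Sys X) (u v : Lat) (x : X) : S.sh u (S.sh v x) = S.sh (u + v) x :=
  (S.sh_add u v x).symm

/-- Data of a generating three-cycle. -/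
structure Gen (X : Type) [TopologicalSpace X] (n : ℕ) where
  /-- The clopen set. -/
  U : Clo X
  /-- The first offset. -/
  p : Off n
  /-- The second offset. -/
  q : Off n
  /-- The third offset. -/
  r : Off n
  tri : Sys.Tri p q r

/-- The opposite three-cycle. -/
def Gen.flip (g : Gen X n) : Gen X n :=
  ⟨g.U, g.r, g.q, g.p, g.tri.2.1.symm, g.tri.1.symm, g.tri.2.2.symm⟩

theorem Sys.cycFun_cancel (S : Sys X) (U : Set X) {p q r : Off n} (h : Sys.Tri p q r) (z : Pt X n) :
    S.cycFun U r q p (S.cycFun U p q r z) = z := by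
  obtain ⟨h1, h2, h3⟩ := h
  obtain ⟨x, c⟩ := z
  have e1 : ∀ a b : Lat, -a + (a - b) = -b := fun a b => by abel
  have e2 : ∀ a b : Lat, (a - b) + (b - a) = 0 := fun a b => by abel
  unfold Sys.cycFun
  by_cases hp : c = p.2 ∧ S.sh (-p.1) x ∈ U
  · obtain ⟨rfl, hU⟩ := hp
    simp [h1, h2, h3, h1.symm, h2.symm, h3.symm, S.sh_sh, e1, e2, hU, S.sh_zero]
  by_cases hq : c = q.2 ∧ S.sh (-q.1) x ∈ U
  · obtain ⟨rfl, hU⟩ := hq
    simp [h1, h2, h3, h1.symm, h2.symm, h3.symm, S.sh_sh, e1, e2, hU, S.sh_zero]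
  by_cases hr : c = r.2 ∧ S.sh (-r.1) x ∈ U
  · obtain ⟨rfl, hU⟩ := hr
    simp [h1, h2, h3, h1.symm, h2.symm, h3.symm, S.sh_sh, e1, e2, hU, S.sh_zero]
  simp [hp, hq, hr]

/-- A generator as a permutation of the amplified points. -/
noncomputable def Gen.perm (S : Sys X) (g : Gen X n) : Equiv.Perm (Pt X n) where
  toFun := S.cycFun g.U g.p g.q g.r
  invFun := S.cycFun g.U g.r g.q g.p
  left_inv := S.cycFun_cancel g.U g.tri
  right_inv := S.cycFun_cancel g.U g.flip.tri

theorem Gen.perm_mem (S : Sys X) (g : Gen X n) : g.perm S ∈ S.altGroup n :=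
  Subgroup.subset_closure ⟨g.U, g.U.isClopen, g.p, g.q, g.r, g.tri, fun _ => rfl⟩

theorem Sys.altGroup_eq (S : Sys X) :
    S.altGroup n = Subgroup.closure (Set.range (Gen.perm (n := n) S)) := by
  refine congrArg Subgroup.closure (Set.ext fun g => ⟨?_, ?_⟩)
  · rintro ⟨U, hU, p, q, r, h, hg⟩
    exact ⟨⟨⟨U, hU⟩, p, q, r, h⟩, Equiv.ext fun z => (hg z).symm⟩
  · rintro ⟨g', rfl⟩
    exact ⟨g'.U, g'.U.isClopen, g'.p, g'.q, g'.r, g'.tri, fun _ => rfl⟩

/-- The image of a set under a translation. -/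
def Sys.translate (S : Sys X) (v : Lat) (U : Set X) : Set X := (fun x => S.sh (-v) x) ⁻¹' U

/-- The moved points of a generator. -/
def Gen.supp (S : Sys X) (g : Gen X n) : Set (Pt X n) :=
  {z | (z.2 = g.p.2 ∧ S.sh (-g.p.1) z.1 ∈ g.U) ∨ (z.2 = g.q.2 ∧ S.sh (-g.q.1) z.1 ∈ g.U) ∨
    (z.2 = g.r.2 ∧ S.sh (-g.r.1) z.1 ∈ g.U)}

/-- The translated copies of `V` along the offsets of `F` are pairwise disjoint. -/
def Sys.Separated (S : Sys X) (V : Set X) (F : Finset (Off n)) : Prop :=
  ∀ p ∈ F, ∀ q ∈ F, p ≠ q → p.2 = q.2 → Disjoint (S.translate p.1 V) (S.translate q.1 V)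

/-- The generators carried by one frame. -/
def frameGens (V : Clo X) (F : Finset (Off n)) : Set (Gen X n) :=
  {g | g.U = V ∧ g.p ∈ F ∧ g.q ∈ F ∧ g.r ∈ F}

/-- Evaluation of a word in the generators. -/
noncomputable def evalWord (S : Sys X) : FreeGroup (Gen X n) →* Equiv.Perm (Pt X n) :=
  FreeGroup.lift (Gen.perm S)

/-- The defining relators of the universal group: additivity, change of origin, commutation of
disjointly supported generators, and every relation inside one separated frame. -/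
inductive URel (S : Sys X) : FreeGroup (Gen X n) → Prop where
  | add (g a b : Gen X n) (ha : a.p = g.p ∧ a.q = g.q ∧ a.r = g.r)
      (hb : b.p = g.p ∧ b.q = g.q ∧ b.r = g.r) (hd : Disjoint (a.U : Set X) (b.U : Set X))
      (hu : (g.U : Set X) = (a.U : Set X) ∪ (b.U : Set X)) :
      URel S ((FreeGroup.of g)⁻¹ * (FreeGroup.of a * FreeGroup.of b))
  | shift (g h : Gen X n) (v : Lat) (hU : (h.U : Set X) = S.translate v g.U)
      (hp : h.p = (g.p.1 - v, g.p.2)) (hq : h.q = (g.q.1 - v, g.q.2))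
      (hr : h.r = (g.r.1 - v, g.r.2)) :
      URel S ((FreeGroup.of g)⁻¹ * FreeGroup.of h)
  | comm (g h : Gen X n) (hd : Disjoint (g.supp S) (h.supp S)) :
      URel S (FreeGroup.of g * FreeGroup.of h * (FreeGroup.of g)⁻¹ * (FreeGroup.of h)⁻¹)
  | frame (V : Clo X) (F : Finset (Off n)) (hF : S.Separated (V : Set X) F)
      (w : FreeGroup (Gen X n))
      (hw : w ∈ Subgroup.closure (FreeGroup.of '' frameGens V F)) (h1 : evalWord S w = 1) :
      URel S w

/-- The universal group. -/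
abbrev UGroup (S : Sys X) (n : ℕ) := PresentedGroup {w : FreeGroup (Gen X n) | URel S w}

/-- The statement that the universal group is finitely presented: finitely many generators give
all, and finitely many consequences give all relators. -/
def UniversalFP (S : Sys X) (n : ℕ) : Prop :=
  ∃ (k : ℕ) (ι : Fin k → Gen X n) (R : Set (FreeGroup (Fin k))), R.Finite ∧
    (∀ w ∈ R, evalWord S (FreeGroup.map ι w) = 1) ∧
    ∃ φ : Gen X n → FreeGroup (Fin k),
      (∀ g, evalWord S (FreeGroup.map ι (φ g)) = g.perm S) ∧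
      (∀ i, (φ (ι i))⁻¹ * FreeGroup.of i ∈ Subgroup.normalClosure R) ∧
      ∀ w, URel S w → FreeGroup.lift φ w ∈ Subgroup.normalClosure R

end Vale.Agent.P196.Full
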