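import Vale.Agent.P196.Full.Gen
import Vale.Agent.P196.Reiter

/-!
# P196: statements of the four general parts and their assembly
-/

namespace Vale.Agent.P196.Full

/-- Simplicity and infiniteness of the alternating group. -/
def SimpleGoal : Prop :=
  ∀ (X : Type) [TopologicalSpace X] [CompactSpace X] [T2Space X] [TotallyDisconnectedSpace X]
    [Nonempty X] (S : Sys X) (n : ℕ), 8 ≤ n → S.IsMinimal → Nonempty (Tower S) →
    IsSimpleGroup (S.altGroup n) ∧ Infinite (S.altGroup n)

/-- Amenability of the alternating group. -/
def AmenableGoal : Prop :=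
  ∀ (X : Type) [TopologicalSpace X] [CompactSpace X] [T2Space X] [TotallyDisconnectedSpace X]
    (S : Sys X) (T : Tower S) (n : ℕ), T.Sparse → IsAmenable (S.altGroup n)

end Vale.Agent.P196.Full
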